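import Vale.Agent.N339.Exp

/-!
Regular projection games given by permutations, and three transformations: smoothing, padding of
the alphabets, and lifting to a simple graph.
-/

namespace Vale.Agent.N339

open Finset Vale.Agent.Lib.PCP Vale.Agent.P339 Vale.Agent.P325
open scoped BigOperators

/-- The constraints are `(x, t k x, p k x)`. -/
structure AG (Ω K A B : Type) where
  /-- the right ends -/
  t : K → Ω → Ω
  /-- the maps -/
  p : K → Ω → A → B

namespace AG

variable {Ω K A B : Type}

/-- The right ends are given by permutations. -/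
def Inj (G : AG Ω K A B) : Prop := ∀ k, Function.Injective (G.t k)

/-- All constraints can be satisfied. -/
def Sat (G : AG Ω K A B) : Prop := ∃ (f : Ω → A) (g : Ω → B), ∀ k x, G.p k x (f x) = g (G.t k x)

/-- The value is at most `s`. -/
def ValLE [Fintype Ω] [Fintype K] (G : AG Ω K A B) (s : ℝ) : Prop :=
  ∀ (f : Ω → A) (g : Ω → B), 𝔼 x, 𝔼 k, ind (G.p k x (f x) = g (G.t k x)) ≤ s

/-- Fibres have at most `d` elements. -/
def FibLE [Fintype A] [DecidableEq B] (G : AG Ω K A B) (d : ℕ) : Prop :=
  ∀ k x b, (univ.filter fun a => G.p k x a = b).card ≤ d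

/-- Fibres have exactly `d` elements. -/
def FibEq [Fintype A] [DecidableEq B] (G : AG Ω K A B) (d : ℕ) : Prop :=
  ∀ k x b, (univ.filter fun a => G.p k x a = b).card = d

/-- Smoothness. -/
def Smooth [Fintype K] (G : AG Ω K A B) (η : ℝ) : Prop :=
  ∀ x a a', a ≠ a' → 𝔼 k, ind (G.p k x a = G.p k x a') ≤ η

/-- No parallel constraints. -/
def Simple (G : AG Ω K A B) : Prop := ∀ x k k', G.t k x = G.t k' x → k = k'

/-! ### Smoothing -/

section Smooth

variable {T : ℕ}

/-- Tuples of vertices, one coordinate moves. -/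
def sm (T : ℕ) (a₀ : A) (G : AG Ω K A B) : AG ((Fin (T + 1) → Ω) × Fin (T + 1))
    (K × Fin (T + 1)) (Fin (T + 1) → A) (B × (Fin (T + 1) → A)) where
  t k x := (Function.update x.1 (x.2 + k.2) (G.t k.1 (x.1 (x.2 + k.2))), x.2 + k.2)
  p k x a := (G.p k.1 (x.1 (x.2 + k.2)) (a (x.2 + k.2)), Function.update a (x.2 + k.2) a₀)

variable {a₀ : A} {G : AG Ω K A B}

theorem eq_of_update {J X : Type} [DecidableEq J] {x y : J → X} {i : J} {a b : X}
    (h : Function.update x i a = Function.update y i b) (hi : x i = y i) : x = y := by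
  funext s
  by_cases hs : s = i
  · rw [hs, hi]
  · have := congrFun h s
    rwa [Function.update_of_ne hs, Function.update_of_ne hs] at this

theorem Inj.sm (h : G.Inj) : (G.sm T a₀).Inj := by
  rintro k ⟨x, j⟩ ⟨y, j'⟩ e
  obtain ⟨e1, e2⟩ := Prod.mk.inj e
  obtain rfl : j = j' := add_right_cancel e2
  have e3 := congrFun e1 (j + k.2)
  simp only [Function.update_self] at e3
  exact Prod.ext (eq_of_update e1 (h _ e3)) rfl

theorem Sat.sm (h : G.Sat) : (G.sm T a₀).Sat := by
  obtain ⟨f, g, h⟩ := h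
  refine ⟨fun x s => f (x.1 s), fun y => (g (y.1 y.2), Function.update (fun s => f (y.1 s)) y.2 a₀),
    fun k x => Prod.ext ?_ ?_⟩
  · simp [AG.sm, h]
  · funext s
    by_cases hs : s = x.2 + k.2
    · simp [AG.sm, hs]
    · simp [AG.sm, Function.update_of_ne hs]

theorem FibLE.sm [Fintype A] [DecidableEq A] [DecidableEq B] {d : ℕ} (h : G.FibLE d) :
    (G.sm T a₀).FibLE d := by
  intro k x b
  refine le_trans (card_le_card_of_injOn (fun a => a (x.2 + k.2)) (fun a ha => ?_)
    fun a ha a' ha' e => ?_) (h k.1 (x.1 (x.2 + k.2)) b.1)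
  · simp only [coe_filter, mem_univ, true_and, Set.mem_ofPred_eq] at ha ⊢
    exact congrArg Prod.fst ha
  · simp only [coe_filter, mem_univ, true_and, Set.mem_ofPred_eq] at ha ha'
    exact eq_of_update (congrArg Prod.snd (ha.trans ha'.symm)) e

theorem expect_ind_eq' {X : Type} [Fintype X] (x₀ : X) :
    𝔼 x, ind (x = x₀) = 1 / (Fintype.card X : ℝ) := by
  rw [Fintype.expect_eq_sum_div_card, sum_ind_eq]

theorem smooth_sm [Fintype K] [Nonempty K] : (G.sm T a₀).Smooth (1 / (T + 1 : ℝ)) := by
  intro x a a' hne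
  obtain ⟨s, hs⟩ := Function.ne_iff.1 hne
  have h1 : ∀ k : K × Fin (T + 1), ind ((G.sm T a₀).p k x a = (G.sm T a₀).p k x a') ≤
      ind (k.2 = s - x.2) := fun k => ind_mono fun e => by
    by_contra hk
    have hk' : s ≠ x.2 + k.2 := fun e' => hk (by rw [e']; abel)
    have := congrFun (congrArg Prod.snd e) s
    simp only [AG.sm, Function.update_of_ne hk'] at this
    exact hs this
  refine (expect_le_expect fun k _ => h1 k).trans (le_of_eq ?_)
  rw [expect_prod]
  simp only [expect_ind_eq', Fintype.expect_const, Fintype.card_fin]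
  push_cast
  rfl

theorem ValLE.sm [Fintype Ω] [Nonempty Ω] [Fintype K] {s : ℝ} (h : G.ValLE s) :
    (G.sm T a₀).ValLE s := by
  intro f g
  rw [expect_prod, expect_comm]
  refine expect_le univ_nonempty fun j _ => ?_
  simp only [expect_prod]
  simp only [expect_comm (ι := K) (κ := Fin (T + 1))]
  rw [expect_comm]
  refine expect_le univ_nonempty fun r _ => ?_
  rw [← expect_update _ (j + r)]
  refine expect_le univ_nonempty fun x _ => ?_
  refine le_trans (expect_le_expect fun ω _ => expect_le_expect fun k _ => ind_mono fun e => ?_)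
    (h (fun ω => f (Function.update x (j + r) ω, j) (j + r))
      fun ω => (g (Function.update x (j + r) ω, j + r)).1)
  have := congrArg Prod.fst e
  simpa [AG.sm] using this

end Smooth

/-! ### Padding -/

section Pad

/-- A symmetry argument for random permutations. -/
theorem perm_bound {Z : Type} [Fintype Z] [DecidableEq Z] (T : Finset Z) (z : Z)
    (Ev : Equiv.Perm Z → Z → Prop) {d : ℝ}
    (h1 : ∀ r, ∀ z' ∈ T, ∀ w, Ev (r * Equiv.swap z z') w ↔ Ev r w)
    (h2 : ∀ r, ∑ w, ind (Ev r w) ≤ d) : T.card * 𝔼 r, ind (Ev r (r z)) ≤ d := by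
  have h3 : ∀ z' ∈ T, 𝔼 r, ind (Ev r (r z)) = 𝔼 r, ind (Ev r (r z')) := by
    intro z' hz'
    refine (Fintype.expect_equiv (Equiv.mulRight (Equiv.swap z z')) _ _ fun r => ?_).symm
    refine ind_congr ?_
    rw [Equiv.coe_mulRight, h1 r z' hz']
    simp
  rw [← nsmul_eq_mul, ← sum_const, sum_congr rfl h3, ← expect_sum_comm]
  refine expect_le univ_nonempty fun r _ => le_trans ?_ (h2 r)
  rw [← Equiv.sum_comp r fun w => ind (Ev r w)]
  exact sum_le_sum_of_subset_of_nonneg (subset_univ _) fun _ _ _ => ind_nonneg _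

theorem exists_lift {Y : Type} [Fintype A] [DecidableEq Y] {d : ℕ} (p : A → Y)
    (hp : ∀ y, (univ.filter fun a => p a = y).card ≤ d) :
    ∃ j : A → Y × Fin d, Function.Injective j ∧ ∀ a, (j a).1 = p a := by
  have h : ∀ y, Nonempty ({a // p a = y} ↪ Fin d) := fun y =>
    Function.Embedding.nonempty_of_card_le (by
      rw [Fintype.card_fin, Fintype.card_subtype]; exact hp y)
  let ι := fun y => Classical.choice (h y)
  refine ⟨fun a => (p a, ι (p a) ⟨a, rfl⟩), fun a a' e => ?_, fun _ => rfl⟩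
  obtain ⟨e1, e2⟩ := Prod.mk.inj e
  have key : ∀ y (hy : p a' = y), ι y ⟨a', hy⟩ = ι (p a') ⟨a', rfl⟩ := by
    rintro _ rfl
    rfl
  rw [← key (p a) e1.symm] at e2
  exact congrArg Subtype.val ((ι (p a)).injective e2)

theorem card_fst {X Y : Type} [Fintype X] [DecidableEq Y] {d : ℕ} (E : X ≃ Y × Fin d) (y : Y) :
    (univ.filter fun a => (E a).1 = y).card = d := by
  classical
  refine (card_bij (t := (univ : Finset (Fin d))) (fun a _ => (E a).2) (fun _ _ => mem_univ _)
    (fun a ha a' ha' e => E.injective (Prod.ext ?_ e)) fun i _ =>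
      ⟨E.symm (y, i), by simp, by simp⟩).trans (by simp)
  exact (mem_filter.1 ha).2.trans (mem_filter.1 ha').2.symm

theorem sum_ind_eq_card {X : Type} [Fintype X] (P : X → Prop) [DecidablePred P] :
    ∑ x, ind (P x) = (univ.filter P).card := by
  simp [ind_eq_ite]

/-- The data of the padding. -/
structure PadData (A B R : Type) [Fintype A] [DecidableEq B] [Fintype R] (d q : ℕ) (ε : ℝ) where
  /-- embedding of the left labels -/
  iA : A → Fin (d * q)
  /-- embedding of the right labels -/
  iB : B → Fin q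
  /-- decoding of the left labels -/
  dA : Fin (d * q) → A
  /-- decoding of the right labels -/
  dB : Fin q → B
  /-- the new maps -/
  g : (A → B) → R → Fin (d * q) → Fin q
  fib : ∀ f r y, (univ.filter fun x => g f r x = y).card = d
  sat : ∀ f, (∀ b, (univ.filter fun a => f a = b).card ≤ d) → ∀ r a, g f r (iA a) = iB (f a)
  val : ∀ f, (∀ b, (univ.filter fun a => f a = b).card ≤ d) → ∀ x y,
    𝔼 r, ind (g f r x = y) ≤ ind (f (dA x) = dB y) + ε
  smooth : ∀ x x', x ≠ x' → (∀ f, 𝔼 r, ind (g f r x = g f r x') ≤ ε) ∨ ∃ a a', a ≠ a' ∧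
    ∀ f, (∀ b, (univ.filter fun a => f a = b).card ≤ d) → ∀ r, g f r x = g f r x' → f a = f a'

theorem exists_pad (A B : Type) [Fintype A] [Nonempty A] [Fintype B] [DecidableEq B] [Nonempty B]
    {d : ℕ} (hd : 1 ≤ d) {ε : ℝ} (hε : 0 < ε) : ∃ q₀ : ℕ, ∀ q, q₀ ≤ q →
      ∃ (R : Type) (_ : Fintype R) (_ : Nonempty R), Nonempty (PadData A B R d q ε) := by
  classical
  obtain ⟨N, hN⟩ := exists_nat_ge (d / ε)
  refine ⟨Fintype.card A + Fintype.card B + N + 1, fun q hq => ?_⟩
  have hq' : q ≤ d * q := Nat.le_mul_of_pos_left q hd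
  obtain ⟨m, hm⟩ : ∃ m, Fintype.card A + (m + 1) = d * q := ⟨d * q - Fintype.card A - 1, by omega⟩
  have hmN : (d : ℝ) ≤ ε * m := by
    rw [div_le_iff₀' hε] at hN
    have : (N : ℝ) ≤ m := by exact_mod_cast (by omega : N ≤ m)
    nlinarith
  have hm0 : (0 : ℝ) < m := by
    have : (1 : ℝ) ≤ d := by exact_mod_cast hd
    by_contra h
    nlinarith
  obtain ⟨iB⟩ : Nonempty (B ↪ Fin q) :=
    Function.Embedding.nonempty_of_card_le (by rw [Fintype.card_fin]; omega)
  let eX : A ⊕ Fin (m + 1) ≃ Fin (d * q) := Fintype.equivFinOfCardEq (by simpa using hm)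
  let e0 : A ⊕ Fin (m + 1) ≃ Fin q × Fin d := Fintype.equivOfCardEq (by simp [hm, mul_comm])
  have hσ : ∀ f : A → B, ∃ σ : A ⊕ Fin (m + 1) ≃ Fin q × Fin d,
      (∀ b, (univ.filter fun a => f a = b).card ≤ d) → ∀ a, (σ (Sum.inl a)).1 = iB (f a) := by
    intro f
    by_cases hf : ∀ b, (univ.filter fun a => f a = b).card ≤ d
    · obtain ⟨j, hj, hj'⟩ := exists_lift (d := d) (fun a => iB (f a)) fun y => by
        by_cases hy : ∃ b, iB b = y
        · obtain ⟨b, rfl⟩ := hy
          simpa using hf b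
        · rw [filter_false_of_mem fun a _ e => hy ⟨_, e⟩]
          simp
      obtain ⟨σ, hσ⟩ := Equiv.Perm.exists_extending_pair _ _
        (e0.injective.comp Sum.inl_injective) hj
      exact ⟨e0.trans σ, fun _ a => by rw [← hj' a, ← hσ a]; rfl⟩
    · exact ⟨e0, fun h => absurd h hf⟩
  choose σ hσ using hσ
  let a₀ : A := Classical.arbitrary A
  have hS : ∀ f (y : Fin q), ∑ w : Fin (m + 1), ind ((σ f (Sum.inr w)).1 = y) ≤ d := by
    intro f y
    rw [sum_ind_eq_card, Nat.cast_le]
    exact (card_le_card_of_injOn Sum.inr (fun w hw => by simpa using hw)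
      Sum.inr_injective.injOn).trans (card_fst (σ f) y).le
  have hone : ∀ f (z : Fin (m + 1)) (y : Fin q),
      𝔼 r : Equiv.Perm (Fin (m + 1)), ind ((σ f (Sum.inr (r z))).1 = y) ≤ ε := by
    intro f z y
    have h := perm_bound univ z (fun _ w => (σ f (Sum.inr w)).1 = y)
      (fun _ _ _ _ => Iff.rfl) fun _ => hS f y
    rw [card_univ, Fintype.card_fin] at h
    push_cast at h
    by_contra hc
    nlinarith
  refine ⟨Equiv.Perm (Fin (m + 1)), inferInstance, inferInstance, ⟨⟨fun a => eX (Sum.inl a), iB,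
    fun x => Sum.elim id (fun _ => a₀) (eX.symm x), Function.invFun iB,
    fun f r x => (σ f (Sum.map id r (eX.symm x))).1, fun f r y => ?_, fun f hf r a => ?_,
    fun f hf x y => ?_, fun x x' hx => ?_⟩⟩⟩
  · exact card_fst ((eX.symm.trans (Equiv.sumCongr (Equiv.refl A) r)).trans (σ f)) y
  · simp [hσ f hf]
  · obtain ⟨x, rfl⟩ := eX.surjective x
    simp only [Equiv.symm_apply_apply]
    rcases x with a | z
    · simp only [Sum.map_inl, id, hσ f hf, Fintype.expect_const, Sum.elim_inl]
      refine le_trans (ind_mono fun e => ?_) (le_add_of_nonneg_right hε.le)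
      rw [← e, Function.leftInverse_invFun iB.injective]
    · exact (hone f z y).trans (le_add_of_nonneg_left (ind_nonneg _))
  · obtain ⟨x, rfl⟩ := eX.surjective x
    obtain ⟨x', rfl⟩ := eX.surjective x'
    have hx' : x ≠ x' := fun e => hx (by rw [e])
    simp only [Equiv.symm_apply_apply]
    rcases x with a | z <;> rcases x' with a' | z'
    · refine Or.inr ⟨a, a', fun e => hx' (by rw [e]), fun f hf r e => ?_⟩
      simpa [hσ f hf] using e
    · refine Or.inl fun f => le_trans (le_of_eq ?_) (hone f z' (σ f (Sum.inl a)).1)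
      exact expect_congr rfl fun r _ => ind_congr eq_comm
    · exact Or.inl fun f => hone f z (σ f (Sum.inl a')).1
    · refine Or.inl fun f => ?_
      have hz : z ≠ z' := fun e => hx' (by rw [e])
      have h := perm_bound (univ.erase z') z
        (fun r w => (σ f (Sum.inr w)).1 = (σ f (Sum.inr (r z'))).1) (fun r z'' hz'' w => by
          rw [Equiv.Perm.mul_apply, Equiv.swap_apply_of_ne_of_ne hz.symm
            (ne_of_mem_erase hz'').symm]) fun r => hS f _
      rw [card_erase_of_mem (mem_univ _), card_univ, Fintype.card_fin, Nat.add_sub_cancel] at h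
      by_contra hc
      simp only [Sum.map_inr] at hc
      nlinarith

variable {R : Type} [Fintype A] [DecidableEq B] [Fintype R] {d q : ℕ} {ε : ℝ}
  {P : PadData A B R d q ε} {G : AG Ω K A B}

/-- The padded game. -/
def pad (P : PadData A B R d q ε) (G : AG Ω K A B) : AG Ω (K × R) (Fin (d * q)) (Fin q) where
  t k := G.t k.1
  p k x := P.g (G.p k.1 x) k.2

theorem Inj.pad (h : G.Inj) : (G.pad P).Inj := fun k => h k.1

theorem fibEq_pad : (G.pad P).FibEq d := fun _ _ y => P.fib _ _ y

theorem Sat.pad (hf : G.FibLE d) (h : G.Sat) : (G.pad P).Sat := by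
  obtain ⟨f, g, h⟩ := h
  exact ⟨fun x => P.iA (f x), fun y => P.iB (g y), fun k x => by
    show P.g _ _ _ = P.iB (g (G.t k.1 x))
    rw [P.sat _ (hf k.1 x), h]⟩

theorem ValLE.pad [Fintype Ω] [Nonempty Ω] [Fintype K] [Nonempty K] (hf : G.FibLE d) {s : ℝ}
    (h : G.ValLE s) : (G.pad P).ValLE (s + ε) := by
  intro f g
  have h1 := h (fun x => P.dA (f x)) fun y => P.dB (g y)
  simp only [expect_prod]
  refine le_trans (expect_le_expect fun x _ => expect_le_expect fun k _ =>
    P.val _ (hf k x) (f x) (g (G.t k x))) ?_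
  simp only [expect_add_distrib, Fintype.expect_const]
  linarith

theorem Smooth.pad [Fintype K] [Nonempty K] [Nonempty R] (hf : G.FibLE d) (h : G.Smooth ε) :
    (G.pad P).Smooth ε := by
  intro x a a' hne
  rw [expect_prod]
  rcases P.smooth a a' hne with h1 | ⟨b, b', hb, h1⟩
  · exact expect_le univ_nonempty fun k _ => h1 (G.p k x)
  · refine le_trans (expect_le_expect fun k _ => expect_le univ_nonempty fun r _ =>
      ind_mono (h1 _ (hf k x) r)) (h x b b' hb)

end Pad

/-! ### Lifting -/

section Lift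

variable {F : Type} [Field F] {c : K → F} {G : AG Ω K A B}

/-- The lift along incidence graphs of points and lines. -/
def lift (c : K → F) (G : AG Ω K A B) : AG (Ω × (F × F)) (K × F) A B where
  t k x := (G.t k.1 x.1, pt (c k.1) k.2 x.2)
  p k x := G.p k.1 x.1

theorem Inj.lift (h : G.Inj) : (G.lift c).Inj := fun k _ _ e =>
  Prod.ext (h k.1 (congrArg Prod.fst e)) (pt_injective _ _ (congrArg Prod.snd e))

theorem Sat.lift (h : G.Sat) : (G.lift c).Sat := by
  obtain ⟨f, g, h⟩ := h
  exact ⟨fun x => f x.1, fun y => g y.1, fun k x => h k.1 x.1⟩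

theorem FibEq.lift [Fintype A] [DecidableEq B] {d : ℕ} (h : G.FibEq d) : (G.lift c).FibEq d :=
  fun k x => h k.1 x.1

theorem simple_lift (hc : Function.Injective c) : (G.lift c).Simple := fun _ _ _ e =>
  Prod.ext (hc (pt_eq (congrArg Prod.snd e)).1) (pt_eq (congrArg Prod.snd e)).2

variable [Fintype F] [Fintype K]

theorem Smooth.lift {η : ℝ} (h : G.Smooth η) : (G.lift c).Smooth η := by
  intro x a a' hne
  rw [expect_prod]
  refine le_trans (le_of_eq (expect_congr rfl fun k _ => ?_)) (h x.1 a a' hne)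
  exact Fintype.expect_const (ι := F) (ind (G.p k x.1 a = G.p k x.1 a'))

theorem ValLE.lift [Fintype Ω] [Nonempty Ω] [Nonempty K] [Fintype B] {s lam : ℝ} (hl : 0 < lam)
    (hP : 1 ≤ lam ^ 2 * Fintype.card F) (h : G.ValLE s) : (G.lift c).ValLE (s + lam) := by
  intro f g
  rw [expect_prod]
  simp only [expect_prod (A := K), expect_comm (ι := F × F) (κ := K)]
  refine le_trans (expect_le_expect fun x _ => expect_le_expect fun k _ =>
    line_mix (c k) (fun l => G.p k x (f (x, l))) (fun y => g (G.t k x, y)) hl hP) ?_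
  simp only [expect_add_distrib, Fintype.expect_const]
  refine add_le_add_left ?_ _
  simp only [expect_comm (ι := K) (κ := F × F), expect_comm (ι := Ω) (κ := F × F)]
  exact expect_le univ_nonempty fun l _ => expect_le univ_nonempty fun y _ =>
    h (fun x => f (x, l)) fun x => g (x, y)

end Lift

end AG

end Vale.Agent.N339
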