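import Vale.Agent.Lib.PCP.NPDefs
import Mathlib.Algebra.Order.Archimedean.Real.Basic
import Mathlib.Algebra.BigOperators.Fin

/-!
Projection games whose maps are `d`-to-1, with a probability distribution on the constraints:
value, binary code, regularity, smoothness, list labelings, and NP-hardness of `Gap_q(c, s)`.
-/

namespace Vale.Agent.N339

open Vale.Agent.Lib.NP

/-- A `d`-to-1 game: vertex sets `U = Fin nU`, `V = Fin nV`, alphabets `Fin (d * q)` and `Fin q`,
constraints `e` in `E = Fin nE` with ends `u e`, `v e` and map `π e`, every fibre of `π e` has
exactly `d` elements, and `μ` is a probability distribution on `E` (rational weights). -/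
structure Game (d q : ℕ) where
  nU : ℕ
  nV : ℕ
  nE : ℕ
  u : Fin nE → Fin nU
  v : Fin nE → Fin nV
  π : Fin nE → Fin (d * q) → Fin q
  μ : Fin nE → ℚ
  μ_nonneg : ∀ e, 0 ≤ μ e
  μ_sum : ∑ e, μ e = 1
  fibre : ∀ e b, (Finset.univ.filter fun a => π e a = b).card = d

variable {d q : ℕ}

/-- The value: the largest `μ`-probability of the set of constraints with `π e (A (u e)) = B (v e)`,
over all labelings `(A, B)`. -/
noncomputable def Game.value (G : Game d q) : ℝ :=
  ⨆ L : (Fin G.nU → Fin (d * q)) × (Fin G.nV → Fin q),
    ∑ e with G.π e (L.1 (G.u e)) = L.2 (G.v e), (G.μ e : ℝ)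

/-- The code of a game: `nU` and `nV` in unary, then for each constraint its two ends, the list of
the values of its map, and numerator and denominator of its weight, in binary. -/
def Game.encode (G : Game d q) : List Bool :=
  pairW (List.replicate G.nU true) (pairW (List.replicate G.nV true) (listW (List.ofFn fun e =>
    listW [(G.u e).val.bits, (G.v e).val.bits, listW (List.ofFn fun a => (G.π e a).val.bits),
      (G.μ e).num.natAbs.bits, (G.μ e).den.bits])))

/-- `Gap_q(c, s)` for 2-to-1 games is NP-hard: 3-SAT reduces in deterministic polynomial time to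
value at least `c` against value at most `s`. -/
def GapNPHard (q : ℕ) (c s : ℝ) : Prop :=
  SatReduces (Game.encode (d := 2) (q := q)) (fun G => c ≤ G.value) (fun G => G.value ≤ s)

/-- The distribution is uniform and the constraint graph is a simple bipartite graph in which
every vertex of either side has degree `D`. -/
structure Game.Regular (G : Game d q) (D : ℕ) : Prop where
  uniform : ∀ e, G.μ e = 1 / G.nE
  simple : ∀ e e', G.u e = G.u e' → G.v e = G.v e' → e = e'
  left : ∀ x, (Finset.univ.filter fun e => G.u e = x).card = D
  right : ∀ y, (Finset.univ.filter fun e => G.v e = y).card = D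

/-- At every left vertex, two different labels have the same image for at most an `η` fraction of
the constraints at that vertex. -/
def Game.Smooth (G : Game d q) (η : ℝ) : Prop :=
  ∀ x a a', a ≠ a' → ((Finset.univ.filter fun e => G.u e = x ∧ G.π e a = G.π e a').card : ℝ) ≤
    η * (Finset.univ.filter fun e => G.u e = x).card

/-- List soundness: if the left vertices get lists `L x` of at most `t` labels and any two
different constraints with the same right end and left ends in `S` map some labels of the two
lists to the same label, then `S` has at most an `η` fraction of the left vertices. -/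
def Game.ListSound (G : Game d q) (t : ℕ) (η : ℝ) : Prop :=
  ∀ (S : Finset (Fin G.nU)) (L : Fin G.nU → Finset (Fin (d * q))), (∀ x, (L x).card ≤ t) →
    (∀ e e', e ≠ e' → G.v e = G.v e' → G.u e ∈ S → G.u e' ∈ S →
      ∃ a ∈ L (G.u e), ∃ a' ∈ L (G.u e'), G.π e a = G.π e' a') → (S.card : ℝ) ≤ η * G.nU

end Vale.Agent.N339
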