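import Vale.Agent.P339.Basic
import Vale.Agent.Lib.PCP.Expander
import Vale.Agent.Lib.PCP.Spectral
import Vale.Agent.Lib.PCP.PrepCloud

/-!
Expanders with a small spectral bound, the mixing lemma for labelings, walks inside colour
classes, and the incidence graph of points and lines.
-/

namespace Vale.Agent.N339

open Finset Vale.Agent.Lib.PCP Vale.Agent.Lib.PolyTime Vale.Agent.P339
open scoped BigOperators

/-- A polynomial time family of spectral expanders. -/
structure Fam (K : Type) [Fintype K] [Rev K] (ex : ℕ → K → ℕ → ℕ) (lam : ℝ) : Prop where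
  sch : ∀ n, Schreier n (ex n)
  spec : ∀ n, Spec lam n (ex n)
  pt : ∀ i, PT ∅ fun p : ℕ × ℕ => ex p.1 i p.2

theorem exists_fam_base : ∃ (K : Type) (_ : Fintype K) (_ : Nonempty K) (_ : Rev K)
    (ex : ℕ → K → ℕ → ℕ) (lam : ℝ), 0 ≤ lam ∧ lam < 1 ∧ Fam K ex lam := by
  obtain ⟨lam, h0, h1, h⟩ := spec_of_poinc (ExpIx ⊕ Unit) ExpIx expanders.pos
  let ex : ℕ → ExpIx ⊕ Unit → ℕ → ℕ := fun n i => Sum.elim (expanders.ex n) (fun _ x => x) i
  have hs : ∀ n, Schreier n (ex n) := fun n =>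
    ⟨fun i v hv => by
      rcases i with i | i
      · exact (expanders.sch n).lt i v hv
      · exact hv,
    fun i v hv => by
      rcases i with i | i
      · exact (expanders.sch n).inv i v hv
      · rfl⟩
  refine ⟨ExpIx ⊕ Unit, inferInstance, inferInstance, inferInstance, ex, lam, h0, h1, hs,
    fun n => h n (ex n) (Sum.inr ()) Sum.inl (hs n) (fun _ _ => rfl) Sum.inl_injective
      (expanders.poinc n), fun i => ?_⟩
  rcases i with i | i
  · exact expanders.pt i
  · exact PT.snd'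

theorem Fam.sq {K : Type} [Fintype K] [Nonempty K] [Rev K] {ex : ℕ → K → ℕ → ℕ} {lam : ℝ}
    (h : Fam K ex lam) : ∃ (_ : Rev (K × K)) (ex' : ℕ → K × K → ℕ → ℕ), Fam (K × K) ex' (lam ^ 2) := by
  let r : Rev (K × K) := ⟨fun p => (rev p.2, rev p.1), fun p => by simp [rev_rev]⟩
  refine ⟨r, fun n k x => ex n k.2 (ex n k.1 x), fun n => ⟨fun k v hv =>
    (h.sch n).lt _ _ ((h.sch n).lt _ _ hv), fun k v hv => ?_⟩, fun n f hf => ?_,
    fun k => (h.pt k.2).comp (PT.fst'.pair (h.pt k.1))⟩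
  · show ex n (rev k.1) (ex n (rev k.2) (ex n k.2 (ex n k.1 v))) = v
    rw [(h.sch n).inv _ _ ((h.sch n).lt _ _ hv), (h.sch n).inv _ _ hv]
  · have h1 := h.spec n f hf
    have h2 : ∑ x ∈ range n, (𝔼 j, f (ex n j x)) = 0 := by
      rw [← expect_sum_comm]
      simp only [(h.sch n).sum_comp, hf, expect_const_zero]
    have h3 := h.spec n (fun x => 𝔼 j, f (ex n j x)) h2
    simp only [expect_prod]
    refine h3.trans ?_
    calc lam ^ 2 * ∑ x ∈ range n, (𝔼 j, f (ex n j x)) ^ 2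
        ≤ lam ^ 2 * (lam ^ 2 * ∑ x ∈ range n, f x ^ 2) :=
          mul_le_mul_of_nonneg_left h1 (sq_nonneg _)
      _ = _ := by ring

theorem exists_fam {ε : ℝ} (hε : 0 < ε) : ∃ (K : Type) (_ : Fintype K) (_ : Nonempty K)
    (_ : Rev K) (ex : ℕ → K → ℕ → ℕ), Fam K ex ε := by
  obtain ⟨K, _, _, _, ex, lam, h0, h1, h⟩ := exists_fam_base
  have key : ∀ t : ℕ, ∃ (K : Type) (_ : Fintype K) (_ : Nonempty K) (_ : Rev K)
      (ex : ℕ → K → ℕ → ℕ), Fam K ex (lam ^ 2 ^ t) := by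
    intro t
    induction t with
    | zero => exact ⟨K, _, inferInstance, _, ex, by simpa using h⟩
    | succ t ih =>
      obtain ⟨K, _, _, _, ex, h⟩ := ih
      obtain ⟨r, ex', h'⟩ := h.sq
      exact ⟨K × K, _, inferInstance, r, ex', by rwa [pow_succ, pow_mul]⟩
  obtain ⟨t, ht⟩ := exists_pow_lt_of_lt_one hε h1
  obtain ⟨K, _, _, _, ex, h⟩ := key t
  refine ⟨K, _, inferInstance, _, ex, h.sch, fun n f hf => (h.spec n f hf).trans ?_, h.pt⟩
  refine mul_le_mul_of_nonneg_right (pow_le_pow_left₀ (pow_nonneg h0 _) ?_ 2)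
    (sum_nonneg fun _ _ => sq_nonneg _)
  exact (pow_le_pow_of_le_one h0 h1.le (Nat.lt_two_pow_self).le).trans ht.le

/-- The mixing lemma for labelings. -/
theorem mix {X A : Type} [Fintype A] (s : Finset X) (D : A → X → ℝ) (F : X → A) (c : A → ℝ)
    {lam : ℝ} (hl : 0 < lam) (h : ∀ a, ∑ x ∈ s, D a x ^ 2 ≤ lam ^ 2 * c a) :
    ∑ x ∈ s, D (F x) x ≤ lam / 2 * (s.card + ∑ a, c a) := by
  have h1 : ∀ x ∈ s, D (F x) x ≤ lam / 2 + (∑ a, D a x ^ 2) / (2 * lam) := by
    intro x _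
    have h2 : D (F x) x ^ 2 ≤ ∑ a, D a x ^ 2 :=
      single_le_sum (f := fun a => D a x ^ 2) (fun _ _ => sq_nonneg _) (mem_univ _)
    have h3 : D (F x) x ≤ lam / 2 + D (F x) x ^ 2 / (2 * lam) := by
      rw [div_add_div _ _ two_ne_zero (by positivity), le_div_iff₀ (by positivity)]
      nlinarith [sq_nonneg (D (F x) x - lam)]
    have h4 := div_le_div_of_nonneg_right h2 (show (0 : ℝ) ≤ 2 * lam by positivity)
    linarith
  refine (sum_le_sum h1).trans ?_
  rw [sum_add_distrib, sum_const, nsmul_eq_mul, ← sum_div, sum_comm]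
  have h5 : ∑ a, ∑ x ∈ s, D a x ^ 2 ≤ lam ^ 2 * ∑ a, c a := by
    rw [mul_sum]
    exact sum_le_sum fun a _ => h a
  have h6 := div_le_div_of_nonneg_right h5 (show (0 : ℝ) ≤ 2 * lam by positivity)
  have h7 : lam ^ 2 * (∑ a, c a) / (2 * lam) = lam / 2 * ∑ a, c a := by field_simp
  linarith

theorem sum_ind_eq {B : Type} [Fintype B] (b₀ : B) : ∑ b, ind (b = b₀) = 1 := by
  classical
  simp [ind_eq_ite]

theorem ind_sq (p : Prop) : ind p ^ 2 = ind p := by by_cases h : p <;> simp [ind, h]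

/-! ### Colour classes -/

section Cloud

variable {K : Type} [Fintype K] [Nonempty K] [Rev K] {ex : ℕ → K → ℕ → ℕ} {lam : ℝ}

/-- The average over the colour class of `x`. -/
noncomputable def cav (n : ℕ) (w : ℕ → ℕ) (g : ℕ → ℝ) (x : ℕ) : ℝ :=
  (∑ y ∈ (range n).filter (fun y => w y = w x), g y) /
    ((range n).filter fun y => w y = w x).card

theorem length_cloud (n : ℕ) (w : ℕ → ℕ) (a : ℕ) :
    ((cloud n w a).length : ℝ) = ((range n).filter fun y => w y = a).card := by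
  have := sum_cloud n w a fun _ => 1
  simpa using this

theorem sum_sq_center (m : ℕ) (g : ℕ → ℝ) :
    ∑ r ∈ range m, (g r - (∑ r ∈ range m, g r) / m) ^ 2 ≤ ∑ r ∈ range m, g r ^ 2 := by
  rcases Nat.eq_zero_or_pos m with rfl | hm
  · simp
  have hm' : (0 : ℝ) < m := by exact_mod_cast hm
  set c := (∑ r ∈ range m, g r) / m with hc
  have h1 : ∑ r ∈ range m, g r = c * m := by rw [hc]; field_simp
  have h2 : ∀ r, (g r - c) ^ 2 = g r ^ 2 - 2 * c * g r + c ^ 2 := fun r => by ring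
  simp only [h2, sum_add_distrib, sum_sub_distrib, ← mul_sum, sum_const, card_range, nsmul_eq_mul,
    h1]
  nlinarith [sq_nonneg c]

theorem cloud_spec (h : Fam K ex lam) (n : ℕ) (w : ℕ → ℕ) (g : ℕ → ℝ) :
    ∑ x ∈ range n, ((𝔼 i, g (clStep ex n w i x)) - cav n w g x) ^ 2 ≤
      lam ^ 2 * ∑ x ∈ range n, g x ^ 2 := by
  have hm : ∀ x ∈ range n, w x ∈ (range n).image w := fun x hx => mem_image_of_mem w hx
  rw [← sum_fiberwise_of_maps_to hm, ← sum_fiberwise_of_maps_to hm (f := fun x => g x ^ 2),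
    mul_sum]
  refine sum_le_sum fun a _ => ?_
  set m := (cloud n w a).length with hm
  set g' : ℕ → ℝ := fun r => g ((cloud n w a).getD r 0) with hg'
  set c := (∑ r ∈ range m, g' r) / m with hc
  have h1 : ∑ x ∈ (range n).filter (fun x => w x = a),
      ((𝔼 i, g (clStep ex n w i x)) - cav n w g x) ^ 2 =
      ∑ x ∈ (range n).filter (fun x => w x = a), ((𝔼 i, g (clStep ex n w i x)) - c) ^ 2 := by
    refine sum_congr rfl fun x hx => ?_
    rw [cav, (mem_filter.1 hx).2, hc, hg', hm, sum_cloud, length_cloud]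
  rw [h1, ← sum_cloud n w a fun x => ((𝔼 i, g (clStep ex n w i x)) - c) ^ 2,
    ← sum_cloud n w a fun x => g x ^ 2]
  have h2 : ∑ r ∈ range m, (g' r - c) = 0 := by
    rcases Nat.eq_zero_or_pos m with h0 | h0
    · simp [h0]
    have : (m : ℝ) ≠ 0 := by exact_mod_cast h0.ne'
    rw [sum_sub_distrib, sum_const, card_range, nsmul_eq_mul, hc]
    field_simp
    ring
  have h3 := h.spec m (fun r => g' r - c) h2
  refine le_trans (le_of_eq (sum_congr rfl fun r hr => ?_)) (h3.trans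
    (mul_le_mul_of_nonneg_left (sum_sq_center m g') (sq_nonneg _)))
  simp only [clStep_getD ex _ (mem_range.1 hr), expect_sub_distrib, Fintype.expect_const]
  rfl

theorem cav_eq (n : ℕ) (w : ℕ → ℕ) (g : ℕ → ℝ) (x : ℕ) : cav n w g x =
    ∑ y ∈ range n, if w y = w x then g y / ((range n).filter fun z => w z = w y).card else 0 := by
  rw [cav, sum_div, sum_filter]
  refine sum_congr rfl fun y _ => ?_
  split_ifs with h
  · rw [h]
  · rfl

theorem cav_symm (n : ℕ) (w : ℕ → ℕ) (κ : ℕ → ℕ → ℝ) :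
    ∑ x ∈ range n, cav n w (fun y => κ x y) x = ∑ y ∈ range n, cav n w (fun x => κ x y) y := by
  simp only [cav_eq]
  rw [sum_comm]
  refine sum_congr rfl fun y _ => sum_congr rfl fun x _ => ?_
  by_cases h : w y = w x
  · rw [if_pos h, if_pos h.symm, h]
  · rw [if_neg h, if_neg (Ne.symm h)]

theorem cav_best {A : Type} [Fintype A] [Nonempty A] (n : ℕ) (w : ℕ → ℕ) (h : ℕ → A → ℝ) :
    ∃ τ : ℕ → A, ∀ F : ℕ → A, ∑ x ∈ range n, cav n w (fun y => h y (F x)) x ≤
      ∑ y ∈ range n, h y (τ (w y)) := by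
  choose τ hτ using fun c => Finite.exists_max fun a : A =>
    ∑ y ∈ (range n).filter (fun y => w y = c), h y a
  refine ⟨τ, fun F => ?_⟩
  have h1 : ∑ x ∈ range n, cav n w (fun y => h y (F x)) x ≤
      ∑ x ∈ range n, cav n w (fun y => h y (τ (w y))) x := by
    refine sum_le_sum fun x _ => div_le_div_of_nonneg_right ((hτ (w x) (F x)).trans
      (le_of_eq (sum_congr rfl fun y hy => ?_))) (Nat.cast_nonneg _)
    show _ = h y (τ (w y))
    rw [(mem_filter.1 hy).2]
  refine h1.trans (le_of_eq ?_)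
  rw [cav_symm n w fun _ y => h y (τ (w y))]
  refine sum_congr rfl fun y hy => ?_
  have : (((range n).filter fun z => w z = w y).card : ℝ) ≠ 0 := by
    refine Nat.cast_ne_zero.2 (card_pos.2 ⟨y, ?_⟩).ne'
    exact mem_filter.2 ⟨hy, rfl⟩
  rw [cav, sum_const, nsmul_eq_mul]
  field_simp

theorem cloud_mix {A : Type} [Fintype A] (hf : Fam K ex lam) (hl : 0 < lam) (n : ℕ) (w : ℕ → ℕ)
    (h : ℕ → A → ℝ) (F : ℕ → A) {d : ℝ} (hd : ∀ y < n, ∑ a, h y a ^ 2 ≤ d) :
    ∑ x ∈ range n, 𝔼 i, h (clStep ex n w i x) (F x) ≤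
      ∑ x ∈ range n, cav n w (fun y => h y (F x)) x + lam / 2 * (1 + d) * n := by
  have h1 := mix (range n) (fun a x => (𝔼 i, h (clStep ex n w i x) a) - cav n w (fun y => h y a) x)
    F (fun a => ∑ y ∈ range n, h y a ^ 2) hl fun a => cloud_spec hf n w fun y => h y a
  rw [sum_sub_distrib, card_range, sum_comm] at h1
  have h2 : ∑ y ∈ range n, ∑ a, h y a ^ 2 ≤ d * n := by
    refine (sum_le_sum fun y hy => hd y (mem_range.1 hy)).trans (le_of_eq ?_)
    rw [sum_const, card_range, nsmul_eq_mul, mul_comm]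
  nlinarith

end Cloud

/-! ### Points and lines -/

section Lines

variable {F : Type} [Field F] [Fintype F]

/-- The point number `r` of the line `l` moved by `c`. -/
def pt (c r : F) (l : F × F) : F × F := (l.1 + r, l.1 * (l.1 + r) + l.2 + c)

omit [Fintype F] in
theorem pt_injective (c r : F) : Function.Injective (pt c r) := by
  intro l l' h
  obtain ⟨h1, h2⟩ := Prod.mk.inj h
  have h3 : l.1 = l'.1 := add_right_cancel h1
  rw [h3] at h2
  exact Prod.ext h3 (add_left_cancel (add_right_cancel h2))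

omit [Fintype F] in
theorem pt_eq {c c' r r' : F} {l : F × F} (h : pt c r l = pt c' r' l) : c = c' ∧ r = r' := by
  obtain ⟨h1, h2⟩ := Prod.mk.inj h
  have h3 : r = r' := add_left_cancel h1
  rw [h3] at h2
  exact ⟨add_left_cancel h2, h3⟩

theorem line_sq (c : F) (g : F × F → ℝ) :
    ∑ l : F × F, (∑ r, g (pt c r l)) ^ 2 ≤
      Fintype.card F * ∑ y, g y ^ 2 + (∑ y, g y) ^ 2 := by
  classical
  have h1 : ∀ l : F × F, ∑ r, g (pt c r l) = ∑ ξ, g (ξ, l.1 * ξ + l.2 + c) := fun l =>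
    Fintype.sum_equiv (Equiv.addLeft l.1) _ _ fun _ => rfl
  simp only [h1, sq, sum_mul_sum]
  rw [sum_comm]
  simp only [sum_comm (γ := F × F) (s := univ) (t := (univ : Finset F))]
  set G : F → ℝ := fun ξ => ∑ η, g (ξ, η) with hG
  have h2 : ∀ ξ ξ' : F, ∑ l : F × F, g (ξ, l.1 * ξ + l.2 + c) * g (ξ', l.1 * ξ' + l.2 + c) =
      if ξ = ξ' then Fintype.card F * ∑ η, g (ξ, η) * g (ξ, η) else G ξ * G ξ' := by
    intro ξ ξ'
    split_ifs with h
    · subst h
      rw [Fintype.sum_prod_type]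
      have : ∀ a : F, ∑ b, g (ξ, a * ξ + b + c) * g (ξ, a * ξ + b + c) =
          ∑ η, g (ξ, η) * g (ξ, η) := fun a =>
        Fintype.sum_equiv ((Equiv.addLeft (a * ξ)).trans (Equiv.addRight c)) _ _ fun _ => rfl
      simp only [this, sum_const, card_univ, nsmul_eq_mul]
    · have hb : Function.Bijective fun l : F × F => (l.1 * ξ + l.2 + c, l.1 * ξ' + l.2 + c) := by
        refine Finite.injective_iff_bijective.1 fun l l' e => ?_
        obtain ⟨e1, e2⟩ := Prod.mk.inj e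
        have e3 : (l.1 - l'.1) * (ξ - ξ') = 0 := by linear_combination e1 - e2
        have e4 : l.1 = l'.1 := sub_eq_zero.1 ((mul_eq_zero.1 e3).resolve_right (sub_ne_zero.2 h))
        exact Prod.ext e4 (by rw [e4] at e1; linear_combination e1)
      rw [hG, sum_mul_sum, ← Fintype.sum_prod_type']
      exact Fintype.sum_bijective _ hb _ _ fun _ => rfl
  simp only [h2]
  have h3 : ∀ ξ : F, (∑ ξ', if ξ = ξ' then Fintype.card F * ∑ η, g (ξ, η) * g (ξ, η)
      else G ξ * G ξ') ≤ Fintype.card F * ∑ η, g (ξ, η) * g (ξ, η) + ∑ ξ', G ξ * G ξ' := by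
    intro ξ
    have h4 : ∀ ξ' : F, (if ξ = ξ' then Fintype.card F * ∑ η, g (ξ, η) * g (ξ, η)
        else G ξ * G ξ') ≤ (if ξ = ξ' then Fintype.card F * ∑ η, g (ξ, η) * g (ξ, η) else 0) +
          G ξ * G ξ' := by
      intro ξ'
      split_ifs with h
      · subst h
        nlinarith [mul_self_nonneg (G ξ)]
      · simp
    refine (sum_le_sum fun ξ' _ => h4 ξ').trans (le_of_eq ?_)
    rw [sum_add_distrib, sum_ite_eq, if_pos (mem_univ _)]
  refine (sum_le_sum fun ξ _ => h3 ξ).trans (le_of_eq ?_)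
  rw [sum_add_distrib, ← mul_sum, ← sum_mul_sum, ← sum_mul_sum, Fintype.sum_prod_type,
    Fintype.sum_prod_type]

theorem line_spec (c : F) (g : F × F → ℝ) :
    ∑ l : F × F, ((𝔼 r, g (pt c r l)) - 𝔼 y, g y) ^ 2 ≤ (∑ y, g y ^ 2) / Fintype.card F := by
  have hP : (0 : ℝ) < Fintype.card F := by exact_mod_cast Fintype.card_pos
  have h1 := line_sq c g
  have h2 : ∑ l : F × F, ∑ r, g (pt c r l) = Fintype.card F * ∑ y, g y := by
    rw [sum_comm]
    have : ∀ r, ∑ l : F × F, g (pt c r l) = ∑ y, g y := fun r =>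
      Fintype.sum_bijective _ (Finite.injective_iff_bijective.1 (pt_injective c r)) _ _
        fun _ => rfl
    simp only [this, sum_const, card_univ, nsmul_eq_mul]
  have h3 : ∀ l : F × F, ((𝔼 r, g (pt c r l)) - 𝔼 y, g y) ^ 2 =
      (∑ r, g (pt c r l)) ^ 2 / Fintype.card F ^ 2 -
        2 * (∑ y, g y) / Fintype.card F ^ 3 * ∑ r, g (pt c r l) +
        (∑ y, g y) ^ 2 / Fintype.card F ^ 4 := by
    intro l
    rw [Fintype.expect_eq_sum_div_card, Fintype.expect_eq_sum_div_card, Fintype.card_prod]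
    push_cast
    field_simp
    ring
  simp only [h3, sum_add_distrib, sum_sub_distrib, ← sum_div, ← mul_sum, h2, sum_const, card_univ,
    nsmul_eq_mul, Fintype.card_prod]
  push_cast
  have h4 := div_le_div_of_nonneg_right h1 (show (0 : ℝ) ≤ Fintype.card F ^ 2 by positivity)
  refine le_trans (add_le_add_left (sub_le_sub_right h4 _) _) (le_of_eq ?_)
  field_simp
  ring

/-- Mixing for the incidence graph. -/
theorem line_mix {B : Type} [Fintype B] (c : F) (φ ψ : F × F → B) {lam : ℝ} (hl : 0 < lam)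
    (hP : 1 ≤ lam ^ 2 * Fintype.card F) :
    𝔼 l, 𝔼 r, ind (φ l = ψ (pt c r l)) ≤ (𝔼 l, 𝔼 y, ind (φ l = ψ y)) + lam := by
  have hP0 : (0 : ℝ) < Fintype.card F := by exact_mod_cast Fintype.card_pos
  have h1 := mix univ (fun b l => (𝔼 r, ind (b = ψ (pt c r l))) - 𝔼 y, ind (b = ψ y)) φ
    (fun b => ∑ y, ind (b = ψ y) ^ 2) hl fun b => (line_spec c fun y => ind (b = ψ y)).trans (by
      rw [div_le_iff₀ hP0]
      have : 0 ≤ ∑ y, ind (b = ψ y) ^ 2 := sum_nonneg fun _ _ => sq_nonneg _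
      nlinarith)
  rw [sum_comm] at h1
  simp only [ind_sq, sum_ind_eq, sum_const, card_univ, nsmul_eq_mul, mul_one,
    sum_sub_distrib] at h1
  have hc : (0 : ℝ) < Fintype.card (F × F) := by exact_mod_cast Fintype.card_pos
  rw [Fintype.expect_eq_sum_div_card, Fintype.expect_eq_sum_div_card (fun l => 𝔼 y, _),
    div_add' _ _ _ hc.ne', div_le_div_iff_of_pos_right hc]
  linarith

end Lines

end Vale.Agent.N339
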