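import Vale.Agent.N339.Red
import Vale.Agent.N339.Defs
import Vale.Agent.Lib.PCP.NPBridge

/-!
From games given by permutations to the games of the statement; list soundness; the theorems.
-/

namespace Vale.Agent.N339

open Finset Vale.Agent.Lib.PCP Vale.Agent.Lib.PolyTime Vale.Agent.P339 Vale.Agent.Lib.NP
open scoped BigOperators

variable {d q : ℕ}

theorem Game.le_val (G : Game d q) (A : Fin G.nU → Fin (d * q)) (B : Fin G.nV → Fin q) :
    ∑ e with G.π e (A (G.u e)) = B (G.v e), (G.μ e : ℝ) ≤ G.value :=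
  le_ciSup (f := fun L : (Fin G.nU → Fin (d * q)) × (Fin G.nV → Fin q) =>
    ∑ e with G.π e (L.1 (G.u e)) = L.2 (G.v e), (G.μ e : ℝ)) (Set.finite_range _).bddAbove (A, B)

theorem Game.sum_eq (G : Game d q) : ∑ e, (G.μ e : ℝ) = 1 := by exact_mod_cast G.μ_sum

theorem Game.k_pos (G : Game d q) : 0 < G.nE := by
  rcases Nat.eq_zero_or_pos G.nE with h | h
  · have h1 := G.μ_sum
    have : IsEmpty (Fin G.nE) := ⟨fun e => by have := e.2; omega⟩
    simp at h1
  · exact h

theorem Game.val_eq_one (G : Game d q) (A : Fin G.nU → Fin (d * q)) (B : Fin G.nV → Fin q)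
    (h : ∀ e, G.π e (A (G.u e)) = B (G.v e)) : G.value = 1 := by
  have : Nonempty ((Fin G.nU → Fin (d * q)) × (Fin G.nV → Fin q)) := ⟨(A, B)⟩
  refine le_antisymm (ciSup_le fun L => ?_) ?_
  · rw [← G.sum_eq]
    exact sum_le_sum_of_subset_of_nonneg (filter_subset _ _) fun e _ _ => by
      exact_mod_cast G.μ_nonneg e
  · refine le_trans (le_of_eq ?_) (G.le_val A B)
    rw [filter_true_of_mem fun e _ => h e, G.sum_eq]

theorem Game.Regular.sum_eq {G : Game d q} {D : ℕ} (h : G.Regular D) (s : Finset (Fin G.nE)) :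
    ∑ e ∈ s, (G.μ e : ℝ) = s.card / G.nE := by
  simp only [h.uniform]
  push_cast
  rw [sum_const, nsmul_eq_mul, mul_one_div]

theorem card_eq_of_fibres {k m D : ℕ} (u : Fin k → Fin m)
    (h : ∀ x, (univ.filter fun e => u e = x).card = D) (S : Finset (Fin m)) :
    (univ.filter fun e => u e ∈ S).card = S.card * D := by
  rw [card_eq_sum_card_fiberwise (f := u) (s := univ.filter fun e => u e ∈ S) (t := S)
    fun e he => (mem_filter.1 he).2, ← smul_eq_mul, ← sum_const]
  refine sum_congr rfl fun x hx => ?_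
  rw [← h x, filter_filter]
  exact congrArg card (filter_congr fun e _ => ⟨fun h => h.2, fun h => ⟨h ▸ hx, h⟩⟩)

/-- Small value implies list soundness for regular games. -/
theorem Game.Regular.listSound {G : Game d q} {D : ℕ} (h : G.Regular D) (a₀ : Fin (d * q))
    {δ : ℝ} (hv : G.value ≤ δ) (hD : 1 ≤ δ * D) (t : ℕ) : G.ListSound t ((t ^ 2 + 1) * δ) := by
  classical
  intro S L hL hS
  have hk := G.k_pos
  have h1 := card_eq_of_fibres G.u h.left univ
  have h2 := card_eq_of_fibres G.v h.right univ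
  simp only [mem_univ, filter_true, card_univ, Fintype.card_fin] at h1 h2
  have hD0 : 0 < D := Nat.pos_of_ne_zero fun e => by simp [e] at h1; omega
  have hmn : G.nV = G.nU := Nat.eq_of_mul_eq_mul_right hD0 (h2.symm.trans h1)
  have he₀ : ∀ y, ∃ e₀ : Fin G.nE, (∃ e, G.u e ∈ S ∧ G.v e = y) → G.u e₀ ∈ S ∧ G.v e₀ = y := by
    intro y
    by_cases hy : ∃ e, G.u e ∈ S ∧ G.v e = y
    · exact ⟨hy.choose, fun _ => hy.choose_spec⟩
    · exact ⟨⟨0, hk⟩, fun h => absurd h hy⟩
  choose e₀ he₀ using he₀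
  let lab : Fin G.nU → Fin t → Fin (d * q) := fun x i => (L x).toList.getD i a₀
  have hlab : ∀ x, ∀ a ∈ L x, ∃ i, lab x i = a := by
    intro x a ha
    obtain ⟨i, hi, e⟩ := List.mem_iff_getElem.1 (mem_toList.2 ha)
    refine ⟨⟨i, lt_of_lt_of_le hi (by rw [length_toList]; exact hL x)⟩, ?_⟩
    simp only [lab]
    rw [List.getD_eq_getElem _ _ hi, e]
  let T : Fin t × Fin t → Finset (Fin G.nE) := fun p => univ.filter fun e =>
    G.π e (lab (G.u e) p.1) = G.π (e₀ (G.v e)) (lab (G.u (e₀ (G.v e))) p.2)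
  have hT : ∀ p, ((T p).card : ℝ) ≤ δ * G.nE := by
    intro p
    have h3 := (G.le_val (fun x => lab x p.1) fun y => G.π (e₀ y) (lab (G.u (e₀ y)) p.2)).trans hv
    rwa [h.sum_eq, div_le_iff₀ (by exact_mod_cast hk)] at h3
  have h4 : (univ.filter fun e => G.u e ∈ S) ⊆ univ.image e₀ ∪ univ.biUnion T := by
    intro e he
    have he' := (mem_filter.1 he).2
    by_cases h5 : e = e₀ (G.v e)
    · exact mem_union_left _ (mem_image.2 ⟨_, mem_univ _, h5.symm⟩)
    · obtain ⟨h6, h7⟩ := he₀ (G.v e) ⟨e, he', rfl⟩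
      obtain ⟨a, ha, a', ha', h8⟩ := hS e _ h5 h7.symm he' h6
      obtain ⟨i, rfl⟩ := hlab _ a ha
      obtain ⟨j, rfl⟩ := hlab _ a' ha'
      exact mem_union_right _ (mem_biUnion.2 ⟨(i, j), mem_univ _, mem_filter.2 ⟨mem_univ _, h8⟩⟩)
  have h5 : S.card * D ≤ G.nU + ∑ p, (T p).card := by
    rw [← card_eq_of_fibres G.u h.left S]
    refine (card_le_card h4).trans ((card_union_le _ _).trans (add_le_add ?_ card_biUnion_le))
    exact card_image_le.trans (by simp [hmn])
  have h6 : (S.card : ℝ) * D ≤ G.nU + t ^ 2 * (δ * (G.nU * D)) := by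
    have h7 : ((∑ p, (T p).card : ℕ) : ℝ) ≤ t ^ 2 * (δ * G.nE) := by
      push_cast
      refine (sum_le_sum fun p _ => hT p).trans (le_of_eq ?_)
      simp [sq]
    have h8 : (S.card : ℝ) * D ≤ G.nU + ((∑ p, (T p).card : ℕ) : ℝ) := by exact_mod_cast h5
    have h9 : (G.nE : ℝ) = G.nU * D := by exact_mod_cast h1
    rw [h9] at h7
    linarith
  have hD' : (0 : ℝ) < D := by exact_mod_cast hD0
  refine le_of_mul_le_mul_right (h6.trans ?_) hD'
  have : (0 : ℝ) ≤ G.nU := Nat.cast_nonneg _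
  nlinarith

section Conv

variable {Ω K : Type} [Fintype Ω] [Nonempty Ω] [Fintype K] [Nonempty K] {n : ℕ}

omit [Fintype Ω] in
theorem n_pos (e : Ω ≃ Fin n) : 0 < n := Fin.pos (e (Classical.arbitrary Ω))

/-- The game of the statement. -/
noncomputable def toGame (G : AG Ω K (Fin (d * q)) (Fin q)) (e : Ω ≃ Fin n) (h : G.FibEq d) :
    Game d q where
  nU := n
  nV := n
  nE := n * Fintype.card K
  u ε := e ((prodE e K).symm ε).1
  v ε := e (G.t ((prodE e K).symm ε).2 ((prodE e K).symm ε).1)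
  π ε := G.p ((prodE e K).symm ε).2 ((prodE e K).symm ε).1
  μ _ := 1 / (n * Fintype.card K : ℕ)
  μ_nonneg _ := by positivity
  μ_sum := by
    have : ((n * Fintype.card K : ℕ) : ℚ) ≠ 0 := by
      exact_mod_cast (Nat.mul_pos (n_pos e) Fintype.card_pos).ne'
    rw [sum_const, card_univ, Fintype.card_fin, nsmul_eq_mul, mul_one_div_cancel this]
  fibre ε b := h _ _ b

variable {G : AG Ω K (Fin (d * q)) (Fin q)} {e : Ω ≃ Fin n} {h : G.FibEq d}

theorem card_symm {X : Type} [Fintype X] {k : ℕ} (E : X ≃ Fin k) (P : X → Prop)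
    [DecidablePred fun ε => P (E.symm ε)] :
    ((univ.filter fun ε => P (E.symm ε)).card : ℝ) = ∑ x, ind (P x) := by
  rw [← AG.sum_ind_eq_card]
  exact Equiv.sum_comp E.symm fun x => ind (P x)

omit [Nonempty Ω] [Nonempty K] in
theorem sum_ind_left (e : Ω ≃ Fin n) (x : Fin n) (P : Ω × K → Prop) :
    ∑ z : Ω × K, ind (e z.1 = x ∧ P z) = ∑ k, ind (P (e.symm x, k)) := by
  rw [Fintype.sum_prod_type, sum_eq_single (e.symm x)]
  · simp
  · intro y _ hy
    exact sum_eq_zero fun k _ => ind_of_not fun h => hy (by rw [← h.1]; simp)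
  · simp

theorem card_left (x : Fin (toGame G e h).nU) :
    (univ.filter fun ε => (toGame G e h).u ε = x).card = Fintype.card K := by
  have h1 := card_symm (prodE e K) fun z => e z.1 = (show Fin n from x)
  have h2 := sum_ind_left e x fun _ : Ω × K => True
  simp only [and_true, ind_of trivial, sum_const, card_univ, nsmul_eq_mul, mul_one] at h2
  exact_mod_cast h1.trans h2

theorem toGame_regular (hi : G.Inj) (hs : G.Simple) :
    (toGame G e h).Regular (Fintype.card K) where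
  uniform _ := rfl
  simple ε ε' h1 h2 := by
    have h3 := e.injective h1
    have h4 := e.injective h2
    rw [← h3] at h4
    exact (prodE e K).symm.injective (Prod.ext h3 (hs _ _ _ h4))
  left := card_left
  right y := by
    have h1 := card_symm (prodE e K) fun z => e (G.t z.2 z.1) = (show Fin n from y)
    have h2 : ∀ k, ∑ x, ind (e (G.t k x) = (show Fin n from y)) = 1 := fun k => by
      rw [← sum_ind_eq (show Fin n from y)]
      exact Fintype.sum_bijective (fun x => e (G.t k x))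
        (e.bijective.comp (Finite.injective_iff_bijective.1 (hi k))) _ _ fun _ => rfl
    rw [Fintype.sum_prod_type_right] at h1
    simp only [h2, sum_const, card_univ, nsmul_eq_mul, mul_one] at h1
    exact_mod_cast h1

theorem toGame_smooth {η : ℝ} (hs : G.Smooth η) : (toGame G e h).Smooth η := by
  intro x a a' hne
  have h1 := card_symm (prodE e K) fun z =>
    e z.1 = (show Fin n from x) ∧ G.p z.2 z.1 a = G.p z.2 z.1 a'
  have h2 := hs (e.symm x) a a' hne
  rw [Fintype.expect_eq_sum_div_card, div_le_iff₀ (by exact_mod_cast Fintype.card_pos)] at h2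
  rw [card_left]
  exact (h1.trans (sum_ind_left e x fun z => G.p z.2 z.1 a = G.p z.2 z.1 a')).trans_le h2

omit [Fintype Ω] in
theorem toGame_sat (hs : G.Sat) : (toGame G e h).value = 1 := by
  obtain ⟨f, g, hfg⟩ := hs
  refine Game.val_eq_one _ (fun x => f (e.symm x)) (fun y => g (e.symm y)) fun ε => ?_
  simp only [toGame, Equiv.symm_apply_apply, hfg]

theorem toGame_val (hq : 0 < d * q) (hi : G.Inj) (hs : G.Simple) {s : ℝ} (hv : G.ValLE s) :
    (toGame G e h).value ≤ s := by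
  have : Nonempty ((Fin (toGame G e h).nU → Fin (d * q)) × (Fin (toGame G e h).nV → Fin q)) :=
    ⟨(fun _ => ⟨0, hq⟩, fun _ => ⟨0, Nat.pos_of_mul_pos_left hq⟩)⟩
  refine ciSup_le fun L => ?_
  rw [(toGame_regular hi hs).sum_eq]
  have h1 := card_symm (prodE e K) fun z => G.p z.2 z.1 (L.1 (e z.1)) = L.2 (e (G.t z.2 z.1))
  have h2 := hv (fun x => L.1 (e x)) fun y => L.2 (e y)
  rw [← expect_prod fun z : Ω × K => ind (G.p z.2 z.1 (L.1 (e z.1)) = L.2 (e (G.t z.2 z.1))),
    Fintype.expect_eq_sum_div_card, ← h1, Fintype.card_congr (prodE e K), Fintype.card_fin] at h2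
  exact h2

/-- The data which is written down. -/
noncomputable def data (H : PG K (Fin (d * q)) (Fin q)) : Un × Un × List (List Raw) :=
  (⟨H.n⟩, ⟨H.n⟩, (List.range (H.n * Fintype.card K)).map fun z =>
    [⟨(z / Fintype.card K).bits⟩, ⟨(H.t (lo K z) (z / Fintype.card K)).bits⟩,
      ⟨enc (List.ofFn fun a => (H.p (lo K z) (z / Fintype.card K) a).val)⟩, ⟨(1 : ℕ).bits⟩,
      ⟨(H.n * Fintype.card K).bits⟩])

theorem ofFn_eq_range {α : Type} {k : ℕ} (f : Fin k → α) (g : ℕ → α) (h : ∀ i, f i = g i) :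
    List.ofFn f = (List.range k).map g := by
  refine List.ext_getElem (by simp) fun i h1 h2 => ?_
  simp [h]

omit [Fintype Ω] in
theorem code_toGame (H : PG K (Fin (d * q)) (Fin q)) (e : Ω ≃ Fin H.n)
    (he : ∀ k x, H.t k (e x) = e (G.t k x) ∧ H.p k (e x) = G.p k x) :
    (toGame G e h).encode = enc (data H) := by
  rw [data, enc_pair, enc_pair, enc_un, ← listW_map_enc, Game.encode, pairW_eq_pr, List.map_map]
  congr 3
  refine ofFn_eq_range _ _ fun ε => ?_
  obtain ⟨z, rfl⟩ := (prodE e K).surjective ε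
  have hk : 0 < H.n * Fintype.card K := Nat.mul_pos (n_pos e) Fintype.card_pos
  simp only [Function.comp_apply, prodE_val, pcode_div, lo_pcode, (he _ _).1, (he _ _).2]
  rw [← listW_map_enc]
  simp only [List.map_cons, List.map_nil, enc_raw, toGame, Equiv.symm_apply_apply]
  rw [← listW_map_enc, List.map_ofFn, one_div, Rat.inv_natCast_num_of_pos hk,
    Rat.inv_natCast_den_of_pos hk]
  rfl

theorem PT_data {F : CNF → PG K (Fin (d * q)) (Fin q)} (hF : PG.IsPT F) :
    PT ∅ fun φ => data (F φ) := by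
  have hd : PT ∅ fun z : CNF × ℕ => (z.1, z.2 / Fintype.card K) :=
    PT.fst'.pair (PT.snd'.div (PT.const _))
  refine PT.pair (PT.mkUn hF.n hF.nb) (PT.pair (PT.mkUn hF.n hF.nb)
    (PT.map (PT.range (hF.n.mul (PT.const _)) (hF.nb.mul (PBd.const _))) ?_))
  refine PT.cons (PT.rawBits hd.snd) (PT.cons (PT.rawBits ?_) (PT.cons ?_ (PT.cons (PT.const _)
    (PT.cons (PT.rawBits ((hF.n.comp PT.fst').mul (PT.const _))) PT.nil))))
  · exact PT_lo (f := fun (j : K) (z : CNF × ℕ) => (F z.1).t j (z.2 / Fintype.card K))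
      fun j => (hF.t j).comp hd
  · exact PT_lo (f := fun (j : K) (z : CNF × ℕ) =>
      Raw.mk (enc (List.ofFn fun a => ((F z.1).p j (z.2 / Fintype.card K) a).val))) fun j =>
      PT.finComp (fun π : Fin (d * q) → Fin q => Raw.mk (enc (List.ofFn fun a => (π a).val)))
        ((hF.p j).comp hd)

end Conv

/-- The strong form, for every `d`. -/
theorem strong {d : ℕ} (hd : 2 ≤ d) (t : ℕ) {δ : ℝ} (hδ : 0 < δ) : ∃ q₀ : ℕ, ∀ q, q₀ ≤ q → ∃ D : ℕ,
    SatReduces (Game.encode (d := d) (q := q)) (fun G => G.Regular D ∧ G.Smooth δ ∧ G.value = 1)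
      (fun G => G.Regular D ∧ G.Smooth δ ∧ G.value ≤ δ ∧ G.ListSound t δ) ∧
    NPHard (Game.encode (d := d) (q := q)) (fun G => G.Regular D ∧ G.Smooth δ ∧ G.value = 1)
      (fun G => G.Regular D ∧ G.Smooth δ ∧ G.value ≤ δ ∧ G.ListSound t δ) := by
  have ht : (1 : ℝ) ≤ t ^ 2 + 1 := by nlinarith [sq_nonneg (t : ℝ)]
  have hδ' : 0 < δ / (t ^ 2 + 1) := by positivity
  have hle : δ / (t ^ 2 + 1) ≤ δ := div_le_self hδ.le ht
  obtain ⟨q₀, h⟩ := hardG_main hd hδ'
  refine ⟨q₀ + 1, fun q hq => ?_⟩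
  obtain ⟨K, _, hK, F, hF, h⟩ := h q (by omega)
  have hq' : 0 < d * q := Nat.mul_pos (by omega) (by omega)
  have : Nonempty K := Fintype.card_pos_iff.1 (Nat.pos_of_ne_zero fun e => by
    rw [e] at hK; norm_num at hK)
  have hY : ∀ φ, SAT3.yes φ → ∃ G : Game d q, G.encode = enc (data (F φ)) ∧
      G.Regular (Fintype.card K) ∧ G.Smooth δ ∧ G.value = 1 := by
    intro φ hφ
    obtain ⟨Ω, _, _, G, ⟨e, he⟩, h2, ⟨h3, h4, h5⟩, h6, -⟩ := h φ
    exact ⟨toGame G e h3, code_toGame _ e he, toGame_regular h2 h5,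
      toGame_smooth fun x a a' hne => (h4 x a a' hne).trans hle, toGame_sat (h6 hφ)⟩
  have hN : ∀ φ, SAT3.no φ → ∃ G : Game d q, G.encode = enc (data (F φ)) ∧
      G.Regular (Fintype.card K) ∧ G.Smooth δ ∧ G.value ≤ δ ∧ G.ListSound t δ := by
    intro φ hφ
    obtain ⟨Ω, _, _, G, ⟨e, he⟩, h2, ⟨h3, h4, h5⟩, -, h6⟩ := h φ
    have h7 := toGame_val (e := e) (h := h3) hq' h2 h5 (h6 hφ)
    have h8 := (toGame_regular h2 h5).listSound ⟨0, hq'⟩ h7 hK t
    rw [mul_div_cancel₀ _ (by positivity)] at h8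
    exact ⟨toGame G e h3, code_toGame _ e he, toGame_regular h2 h5,
      toGame_smooth fun x a a' hne => (h4 x a a' hne).trans hle, h7.trans hle, h8⟩
  have h0 : Hard SAT3 := Red.refl _
  exact ⟨_, h0.satReduces _ _ _ _ (PT_data hF) hY hN, h0.npHard _ _ _ _ (PT_data hF) hY hN⟩

theorem literal {δ : ℝ} (hδ : 0 < δ) : ∃ q : ℕ, 2 ≤ q ∧ GapNPHard q 1 δ := by
  obtain ⟨q₀, h⟩ := strong le_rfl 0 hδ
  obtain ⟨D, ⟨f, hf, h1, h2⟩, -⟩ := h (q₀ + 2) (by omega)
  exact ⟨q₀ + 2, by omega, f, hf, fun φ hφ => (h1 φ hφ).2.2.ge, fun φ hφ => (h2 φ hφ).2.2.1⟩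

theorem glb : IsGLB {s : ℝ | 0 < s ∧ s < 1 ∧ ∃ q : ℕ, 2 ≤ q ∧ GapNPHard q 1 s} 0 := by
  refine ⟨fun s hs => hs.1.le, fun b hb => ?_⟩
  by_contra h
  have hb0 : 0 < b := not_le.1 h
  have h1 : 0 < min (b / 2) (1 / 2) := by positivity
  have h2 := hb ⟨h1, (min_le_right _ _).trans_lt (by norm_num), literal h1⟩
  linarith [min_le_left (b / 2) (1 / 2 : ℝ)]

end Vale.Agent.N339
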