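import Vale.Agent.N339.AG
import Vale.Agent.Lib.PCP.LCBase
import Vale.Agent.Results.P339.ATwoToOne

/-!
The reductions: regularisation by expanders, smoothing, padding, lifting, in polynomial time.
-/

namespace Vale.Agent.N339

open Finset Vale.Agent.Lib.PCP Vale.Agent.Lib.PolyTime Vale.Agent.P339 Vale.Agent.P325
open scoped BigOperators

/-- Games on numbers. -/
structure PG (K A B : Type) where
  /-- the number of vertices on each side -/
  n : ℕ
  /-- the right ends -/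
  t : K → ℕ → ℕ
  /-- the maps -/
  p : K → ℕ → A → B

variable {Ω K A B : Type}

/-- The game on numbers represents the abstract game. -/
def PG.Rep (H : PG K A B) (G : AG Ω K A B) : Prop :=
  ∃ e : Ω ≃ Fin H.n, ∀ k x, H.t k (e x) = e (G.t k x) ∧ H.p k (e x) = G.p k x

/-- Polynomial time families. -/
structure PG.IsPT [Fintype A] [Enc B] (F : CNF → PG K A B) : Prop where
  n : PT ∅ fun a => (F a).n
  nb : PBd fun a => (F a).n
  t : ∀ k, PT ∅ fun z : CNF × ℕ => (F z.1).t k z.2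
  p : ∀ k, PT ∅ fun z : CNF × ℕ => (F z.1).p k z.2

/-- Hardness with perfect completeness, soundness `s` and a property `P` of all games. -/
def HardG (K A B : Type) [Fintype K] [Fintype A] [Enc B] (P : ∀ Ω : Type, AG Ω K A B → Prop)
    (s : ℝ) : Prop :=
  ∃ F : CNF → PG K A B, PG.IsPT F ∧ ∀ φ, ∃ (Ω : Type) (_ : Fintype Ω) (_ : Nonempty Ω)
    (G : AG Ω K A B), (F φ).Rep G ∧ G.Inj ∧ P Ω G ∧ (Satisfiable φ → G.Sat) ∧
      (¬ Satisfiable φ → G.ValLE s)

/-- The starting point. -/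
theorem base {δ : ℝ} (hδ : 0 < δ) : ∃ q : ℕ, 2 ≤ q ∧ ∃ (V : Type) (_ : Enc V) (_ : EncInj V)
    (_ : Nonempty V), Hard (TGap V q δ) := by
  obtain ⟨θ, hθ, hX⟩ := core_thm (main_thm CharB.char_thm good_thm
    (stable_thm rank_thm junta_thm) decode_thm) innerTop_thm innerStep_thm pairStep_thm (δ / 2)
    (half_pos hδ)
  obtain ⟨D, S, _, _, _, _, _, _, _, hard⟩ := star_thm θ hθ
  obtain ⟨X, h1, h2, h3⟩ := hX S
  have hK' := key_thm D S X θ (δ / 2) h1 h2 h3
  classical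
  obtain ⟨q, hq, hR⟩ := pad_thm (X.L → S) (X.L → Option S) (δ / 2) (half_pos hδ)
  have h4 := (hard.red hK').red (hR ((X.L → ℕ) × ℕ) (δ / 2))
  rw [add_halves] at h4
  exact ⟨q, hq, _, _, inferInstance, inferInstance, h4⟩

/-! ### Regularisation -/

section Reg

variable {V : Type} [Enc V] {q : ℕ} [Fintype K] [Nonempty K] [Rev K] {ex : ℕ → K → ℕ → ℕ}
  {lam : ℝ}

/-- The name of the left end. -/
def wL (c₀ : TEdge V q) (l : List (TEdge V q)) (x : ℕ) : ℕ := name (l.getD x c₀).1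

/-- The name of the right end. -/
def wR (c₀ : TEdge V q) (l : List (TEdge V q)) (x : ℕ) : ℕ := name (l.getD x c₀).2.1

/-- The regular game. -/
def reg (ex : ℕ → K → ℕ → ℕ) (c₀ : TEdge V q) (l : List (TEdge V q)) :
    PG (K × K) (Fin (2 * q)) (Fin q) where
  n := l.length
  t k x := clStep ex l.length (wR c₀ l) k.2 (clStep ex l.length (wL c₀ l) k.1 x)
  p k x := (l.getD (clStep ex l.length (wL c₀ l) k.1 x) c₀).2.2

theorem getD_mem {α : Type} {l : List α} {x : ℕ} (hx : x < l.length) (c₀ : α) : l.getD x c₀ ∈ l := by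
  rw [List.getD_eq_getElem _ _ hx]
  exact List.getElem_mem hx

theorem reg_val (hq : 0 < q) (hf : Fam K ex lam) (hl : 0 < lam) (c₀ : TEdge V q)
    {l : List (TEdge V q)} (h2 : ∀ c ∈ l, ExactTwo c.2.2) {s : ℝ}
    (hs : ∀ a, (cnt satT l a : ℝ) ≤ s * l.length) (F : ℕ → Fin (2 * q)) (G : ℕ → Fin q) :
    ∑ x ∈ range l.length, 𝔼 k, ind ((reg ex c₀ l).p k x (F x) = G ((reg ex c₀ l).t k x)) ≤
      (s + 3 * lam) * l.length := by
  have : Nonempty (Fin q) := ⟨⟨0, hq⟩⟩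
  have : Nonempty (Fin (2 * q)) := ⟨⟨0, by omega⟩⟩
  set N := l.length with hN
  let pr : ℕ → Fin (2 * q) → Fin q := fun e => (l.getD e c₀).2.2
  let h : ℕ → Fin (2 * q) → ℝ := fun e a => 𝔼 j, ind (pr e a = G (clStep ex N (wR c₀ l) j e))
  have h1 := cloud_mix hf hl N (wL c₀ l) h F (d := 2) fun e he => by
    have h3 : ∀ a, h e a ^ 2 ≤ h e a := fun a => by
      have h4 : 0 ≤ h e a := expect_nonneg fun _ _ => ind_nonneg _
      have h5 : h e a ≤ 1 := expect_le univ_nonempty fun _ _ => ind_le_one _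
      nlinarith
    refine (sum_le_sum fun a _ => h3 a).trans ?_
    rw [← expect_sum_comm]
    refine expect_le univ_nonempty fun j _ => le_of_eq ?_
    rw [AG.sum_ind_eq_card]
    exact_mod_cast h2 _ (getD_mem he c₀) _
  obtain ⟨τ, hτ⟩ := cav_best N (wL c₀ l) h
  have h3 := hτ F
  let φ : ℕ → Fin q := fun e => pr e (τ (wL c₀ l e))
  have h4 := cloud_mix hf hl N (wR c₀ l) (fun y b => ind (b = G y)) φ (d := 1) fun y _ => by
    simp only [ind_sq, sum_ind_eq, le_refl]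
  rw [cav_symm N (wR c₀ l) fun x y => ind (φ x = G y)] at h4
  obtain ⟨τ', hτ'⟩ := cav_best N (wR c₀ l) fun x b => ind (φ x = b)
  have h5 := hτ' G
  have h6 := hs (fun v => τ (name v), fun v => τ' (name v))
  rw [cnt_eq_sum, sum_map_eq_sum_range l c₀] at h6
  have h7 : ∑ y ∈ range N, ind (φ y = τ' (wR c₀ l y)) ≤ s * N := by
    refine le_trans (le_of_eq (sum_congr rfl fun y _ => ?_)) h6
    simp only [satT, decide_eq_true_eq, ind_eq_ite]
    rfl
  have h8 : ∑ x ∈ range N, 𝔼 k, ind ((reg ex c₀ l).p k x (F x) = G ((reg ex c₀ l).t k x)) =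
      ∑ x ∈ range N, 𝔼 i, h (clStep ex N (wL c₀ l) i x) (F x) :=
    sum_congr rfl fun x _ => expect_prod _
  have h9 : ∑ y ∈ range N, h y (τ (wL c₀ l y)) =
      ∑ x ∈ range N, 𝔼 i, ind (φ x = G (clStep ex N (wR c₀ l) i x)) := rfl
  have h10 : 0 ≤ lam * N := by positivity
  rw [h8]
  linarith

theorem hardG_reg [EncInj V] [Nonempty V] (hq : 0 < q) (hf : Fam K ex lam) (hl : 0 < lam) {s : ℝ}
    (h : Hard (TGap V q s)) :
    HardG (K × K) (Fin (2 * q)) (Fin q) (fun _ G => G.FibLE 2) (s + 3 * lam) := by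
  obtain ⟨f, hpt, f1, f2⟩ := h
  let c₀ : TEdge V q := (Classical.arbitrary V, Classical.arbitrary V, fun _ => ⟨0, hq⟩)
  have hL : PT ∅ fun z : CNF × ℕ => wL c₀ (f z.1) z.2 :=
    PT.name (PT.getD (hpt.comp PT.fst') PT.snd' (PT.const c₀)).fst
  have hR : PT ∅ fun z : CNF × ℕ => wR c₀ (f z.1) z.2 :=
    PT.name (PT.getD (hpt.comp PT.fst') PT.snd' (PT.const c₀)).snd.fst
  have sL := fun i => PT_clStep (w := fun φ => wL c₀ (f φ)) (hf.pt i) hpt.length
    (PBd.length hpt) hL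
  have sR := fun i => PT_clStep (w := fun φ => wR c₀ (f φ)) (hf.pt i) hpt.length
    (PBd.length hpt) hR
  refine ⟨fun φ => reg ex c₀ (f φ), ⟨hpt.length, PBd.length hpt,
    fun k => (sR k.2).comp (PT.fst'.pair (sL k.1)),
    fun k => (PT.getD (hpt.comp PT.fst') (sL k.1) (PT.const c₀)).snd.snd⟩, fun φ => ?_⟩
  have h0 : f φ ≠ [] ∧ ∀ c ∈ f φ, ExactTwo c.2.2 := by
    by_cases hφ : Satisfiable φ
    · exact ⟨(f1 φ hφ).2.1, (f1 φ hφ).1⟩
    · exact ⟨(f2 φ hφ).2.1, (f2 φ hφ).1⟩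
  set l := f φ with hl'
  have hN : 0 < l.length := List.length_pos_iff.2 h0.1
  have SL := schreier_clStep hf.sch l.length (wL c₀ l)
  have SR := schreier_clStep hf.sch l.length (wR c₀ l)
  refine ⟨Fin l.length, inferInstance, ⟨⟨0, hN⟩⟩,
    ⟨fun k x => ⟨(reg ex c₀ l).t k x, SR.lt _ _ (SL.lt _ _ x.2)⟩, fun k x => (reg ex c₀ l).p k x⟩,
    ⟨Equiv.refl _, fun _ _ => ⟨rfl, rfl⟩⟩, fun k x y e => ?_, fun k x b => ?_, fun hφ => ?_,
    fun hφ F G => ?_⟩
  · have e1 := congrArg (fun z : Fin l.length => clStep ex l.length (wL c₀ l) (rev k.1)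
      (clStep ex l.length (wR c₀ l) (rev k.2) z)) e
    simp only [reg, SR.inv _ _ (SL.lt _ _ (Fin.is_lt _)), SL.inv _ _ (Fin.is_lt _)] at e1
    exact Fin.ext e1
  · exact (h0.2 _ (getD_mem (SL.lt _ _ x.2) c₀) b).le
  · obtain ⟨a, ha⟩ := (gap_yes_one.1 (f1 φ hφ).2).2
    refine ⟨fun x => a.1 (l.getD x c₀).1, fun y => a.2 (l.getD y c₀).2.1, fun k x => ?_⟩
    have h1 := ha _ (getD_mem (SL.lt k.1 _ x.2) c₀)
    have h2 := name_injective (mem_cloud.1 (clStep_mem hf.sch (wL c₀ l) k.1 x.2)).2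
    have h3 := name_injective (mem_cloud.1 (clStep_mem hf.sch (wR c₀ l) k.2 (SL.lt k.1 _ x.2))).2
    simp only [satT, decide_eq_true_eq] at h1
    simp only [reg]
    rw [← h2, h3]
    exact h1
  · have hN' : (0 : ℝ) < l.length := by exact_mod_cast hN
    have h1 := reg_val hq hf hl c₀ h0.2 (f2 φ hφ).2.2
      (fun x => if h : x < l.length then F ⟨x, h⟩ else ⟨0, by omega⟩)
      (fun x => if h : x < l.length then G ⟨x, h⟩ else ⟨0, hq⟩)
    rw [Fintype.expect_eq_sum_div_card, Fintype.card_fin, div_le_iff₀ hN']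
    refine le_trans (le_of_eq ?_) h1
    rw [sum_range]
    refine sum_congr rfl fun x _ => expect_congr rfl fun k _ => ?_
    have h2 : (reg ex c₀ l).t k x < l.length := SR.lt _ _ (SL.lt _ _ x.2)
    simp only [Fin.is_lt, dif_pos, h2, Fin.eta]

end Reg

/-! ### Products with a fixed finite type -/

section Prod

variable {D : Type} [Fintype D] [Nonempty D]

/-- The second component of a number. -/
noncomputable def lo (D : Type) [Fintype D] [Nonempty D] (z : ℕ) : D :=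
  (Fintype.equivFin D).symm ⟨z % Fintype.card D, Nat.mod_lt _ Fintype.card_pos⟩

theorem lo_pcode (v : ℕ) (i : D) : lo D (pcode v i) = i := by
  rw [lo, Equiv.symm_apply_eq]
  exact Fin.ext (pcode_mod v i)

theorem PT_lo {α β : Type} [Enc α] [Enc β] {f : D → α × ℕ → β} (h : ∀ i, PT ∅ (f i)) :
    PT ∅ fun z => f (lo D z.2) z :=
  PT.finCase (f := fun j => f ((Fintype.equivFin D).symm j))
    (PT.finMk (PT.snd'.mod (PT.const (Fintype.card D))) fun _ => Nat.mod_lt _ Fintype.card_pos)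
    fun _ => h _

/-- The numbering of a product. -/
noncomputable def prodE {n : ℕ} (e : Ω ≃ Fin n) (D : Type) [Fintype D] :
    Ω × D ≃ Fin (n * Fintype.card D) :=
  (e.prodCongr (Fintype.equivFin D)).trans finProdFinEquiv

omit [Nonempty D] in
theorem prodE_val {n : ℕ} (e : Ω ≃ Fin n) (x : Ω × D) : (prodE e D x : ℕ) = pcode (e x.1) x.2 := by
  simp [prodE, pcode, finProdFinEquiv, mul_comm, add_comm]

omit [Nonempty D] in
theorem PG.rep_prod (H : PG K A B) (G : AG (Ω × D) K A B) {n : ℕ} (e : Ω ≃ Fin n)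
    (hn : H.n = n * Fintype.card D) (h : ∀ k x, H.t k (pcode (e x.1) x.2) =
      pcode (e (G.t k x).1) (G.t k x).2 ∧ H.p k (pcode (e x.1) x.2) = G.p k x) : H.Rep G := by
  obtain ⟨n', t, p⟩ := H
  obtain rfl : n' = n * Fintype.card D := hn
  exact ⟨prodE e D, fun k x => by rw [prodE_val, prodE_val]; exact h k x⟩

end Prod

variable [Fintype K] [Fintype A] [Enc B] {P : ∀ Ω : Type, AG Ω K A B → Prop} {s : ℝ}

theorem HardG.mono {P' : ∀ Ω : Type, AG Ω K A B → Prop} {s' : ℝ} (h : HardG K A B P s)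
    (hP : ∀ Ω G, P Ω G → P' Ω G) (hs : s ≤ s') : HardG K A B P' s' := by
  obtain ⟨F, hF, h⟩ := h
  refine ⟨F, hF, fun φ => ?_⟩
  obtain ⟨Ω, _, _, G, h1, h2, h3, h4, h5⟩ := h φ
  exact ⟨Ω, _, inferInstance, G, h1, h2, hP _ _ h3, h4, fun hφ f g => (h5 hφ f g).trans hs⟩

/-- Smoothing on numbers. -/
noncomputable def PG.sm (T : ℕ) (a₀ : A) (H : PG K A B) :
    PG (K × Fin (T + 1)) (Fin (T + 1) → A) (B × (Fin (T + 1) → A)) where
  n := H.n ^ (T + 1) * Fintype.card (Fin (T + 1))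
  t k z := pcode (undig H.n (Function.update
    (fun i : Fin (T + 1) => dig H.n (z / Fintype.card (Fin (T + 1))) i) (lo _ z + k.2)
    (H.t k.1 (dig H.n (z / Fintype.card (Fin (T + 1))) (lo (Fin (T + 1)) z + k.2).val))))
    (lo (Fin (T + 1)) z + k.2)
  p k z a := (H.p k.1 (dig H.n (z / Fintype.card (Fin (T + 1))) (lo (Fin (T + 1)) z + k.2).val)
    (a (lo _ z + k.2)), Function.update a (lo _ z + k.2) a₀)

theorem HardG.sm [Nonempty K] [DecidableEq A] [Enc A] [Finite B] [EncInj B] [DecidableEq B] {d : ℕ}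
    (T : ℕ) (a₀ : A) (h : HardG K A B (fun _ G => G.FibLE d) s) :
    HardG (K × Fin (T + 1)) (Fin (T + 1) → A) (B × (Fin (T + 1) → A))
      (fun _ G => G.FibLE d ∧ G.Smooth (1 / (T + 1 : ℝ))) s := by
  obtain ⟨F, hF, h⟩ := h
  have hd : ∀ i : ℕ, PT ∅ fun z : CNF × ℕ => dig (F z.1).n (z.2 / Fintype.card (Fin (T + 1))) i :=
    fun i => PT_dig (hF.n.comp PT.fst') (PT.snd'.div (PT.const _)) i
  refine ⟨fun φ => (F φ).sm T a₀, ⟨(hF.n.powConst _).mul (PT.const _),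
    (hF.nb.pow _).mul (PBd.const _), fun k => ?_, fun k => ?_⟩, fun φ => ?_⟩
  · refine PT_lo (f := fun (j : Fin (T + 1)) (z : CNF × ℕ) => pcode (undig (F z.1).n
      (Function.update (fun i : Fin (T + 1) => dig (F z.1).n (z.2 / Fintype.card (Fin (T + 1))) i)
        (j + k.2) ((F z.1).t k.1 (dig (F z.1).n (z.2 / Fintype.card (Fin (T + 1))) (j + k.2).val))))
      (j + k.2)) fun j => PT_pcode (PT_undig (hF.n.comp PT.fst') fun i => ?_) _
    by_cases hi : i = j + k.2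
    · subst hi
      simp only [Function.update_self]
      exact (hF.t k.1).comp (PT.fst'.pair (hd _))
    · simp only [Function.update_of_ne hi]
      exact hd _
  · exact PT_lo (f := fun (j : Fin (T + 1)) (z : CNF × ℕ) => fun a : Fin (T + 1) → A =>
      ((F z.1).p k.1 (dig (F z.1).n (z.2 / Fintype.card (Fin (T + 1))) (j + k.2).val)
        (a (j + k.2)), Function.update a (j + k.2) a₀)) fun j =>
      PT.finComp (fun (π : A → B) (a : Fin (T + 1) → A) =>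
        (π (a (j + k.2)), Function.update a (j + k.2) a₀)) ((hF.p k.1).comp (PT.fst'.pair (hd _)))
  · obtain ⟨Ω, _, _, G, ⟨e, he⟩, h2, h3, h4, h5⟩ := h φ
    let E : (Fin (T + 1) → Ω) ≃ Fin ((F φ).n ^ (T + 1)) :=
      ((Equiv.refl _).arrowCongr e).trans finFunctionFinEquiv
    have hE : ∀ x (i : Fin (T + 1)), dig (F φ).n (E x) i = e (x i) := fun x i =>
      dig_fin (fun i => e (x i)) i
    have hE' : ∀ x, (E x : ℕ) = undig (F φ).n fun i => (e (x i) : ℕ) := fun _ => rfl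
    refine ⟨_, inferInstance, inferInstance, G.sm T a₀,
      PG.rep_prod _ _ E rfl fun k x => ⟨?_, ?_⟩, h2.sm,
      ⟨h3.sm, AG.smooth_sm⟩, fun hφ => (h4 hφ).sm, fun hφ => (h5 hφ).sm⟩
    · simp only [PG.sm, AG.sm, pcode_div, lo_pcode, hE, (he _ _).1]
      rw [hE']
      congr 2
      funext i
      by_cases hi : i = x.2 + k.2
      · simp [hi]
      · simp [Function.update_of_ne hi]
    · simp only [PG.sm, AG.sm, pcode_div, lo_pcode, hE, (he _ _).2]

theorem HardG.pad [Nonempty K] [Finite B] [EncInj B] [DecidableEq B] {R : Type} [Fintype R]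
    [Nonempty R] {d q : ℕ} {ε : ℝ} (Q : AG.PadData A B R d q ε)
    (h : HardG K A B (fun _ G => G.FibLE d ∧ G.Smooth ε) s) :
    HardG (K × R) (Fin (d * q)) (Fin q) (fun _ G => G.FibEq d ∧ G.Smooth ε) (s + ε) := by
  obtain ⟨F, hF, h⟩ := h
  refine ⟨fun φ => ⟨(F φ).n, fun k => (F φ).t k.1, fun k z => Q.g ((F φ).p k.1 z) k.2⟩,
    ⟨hF.n, hF.nb, fun k => hF.t k.1, fun k => PT.finComp (fun π => Q.g π k.2) (hF.p k.1)⟩,
    fun φ => ?_⟩
  obtain ⟨Ω, _, _, G, ⟨e, he⟩, h2, ⟨h3, h3'⟩, h4, h5⟩ := h φ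
  exact ⟨Ω, _, inferInstance, G.pad Q, ⟨e, fun k x => ⟨(he k.1 x).1,
    congrArg (fun π => Q.g π k.2) (he k.1 x).2⟩⟩, h2.pad, ⟨AG.fibEq_pad, h3'.pad h3⟩,
    fun hφ => (h4 hφ).pad h3, fun hφ => (h5 hφ).pad h3⟩

theorem HardG.lift [Nonempty K] [Fintype B] [DecidableEq B] {F : Type} [Field F] [Fintype F]
    {c : K → F} (hc : Function.Injective c) {lam ε : ℝ} (hl : 0 < lam)
    (hP : 1 ≤ lam ^ 2 * Fintype.card F) {d : ℕ}
    (h : HardG K A B (fun _ G => G.FibEq d ∧ G.Smooth ε) s) :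
    HardG (K × F) A B (fun _ G => G.FibEq d ∧ G.Smooth ε ∧ G.Simple) (s + lam) := by
  obtain ⟨H, hH, h⟩ := h
  have hd : PT ∅ fun z : CNF × ℕ => (z.1, z.2 / Fintype.card (F × F)) :=
    PT.fst'.pair (PT.snd'.div (PT.const _))
  refine ⟨fun φ => ⟨(H φ).n * Fintype.card (F × F), fun k z =>
      pcode ((H φ).t k.1 (z / Fintype.card (F × F))) (pt (c k.1) k.2 (lo (F × F) z)),
      fun k z => (H φ).p k.1 (z / Fintype.card (F × F))⟩,
    ⟨hH.n.mul (PT.const _), hH.nb.mul (PBd.const _), fun k => PT_lo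
      (f := fun (j : F × F) (z : CNF × ℕ) =>
        pcode ((H z.1).t k.1 (z.2 / Fintype.card (F × F))) (pt (c k.1) k.2 j))
      fun j => PT_pcode ((hH.t k.1).comp hd) _, fun k => (hH.p k.1).comp hd⟩, fun φ => ?_⟩
  obtain ⟨Ω, _, _, G, ⟨e, he⟩, h2, ⟨h3, h3'⟩, h4, h5⟩ := h φ
  refine ⟨_, inferInstance, inferInstance, G.lift c, ⟨prodE e _, fun k x => ⟨?_, ?_⟩⟩, h2.lift,
    ⟨h3.lift, h3'.lift, AG.simple_lift hc⟩, fun hφ => (h4 hφ).lift,
    fun hφ => (h5 hφ).lift hl hP⟩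
  · rw [prodE_val, prodE_val]
    simp only [AG.lift, pcode_div, lo_pcode, (he _ _).1]
  · rw [prodE_val]
    simp only [AG.lift, pcode_div, (he _ _).2]

/-- The main reduction. -/
theorem hardG_main {d : ℕ} (hd : 2 ≤ d) {δ : ℝ} (hδ : 0 < δ) : ∃ q₀ : ℕ, ∀ q, q₀ ≤ q →
    ∃ (K : Type) (_ : Fintype K), 1 ≤ δ * Fintype.card K ∧
      HardG K (Fin (d * q)) (Fin q) (fun _ G => G.FibEq d ∧ G.Smooth δ ∧ G.Simple) δ := by
  classical
  have h6 : 0 < δ / 6 := by positivity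
  obtain ⟨q₁, hq₁, V, _, _, _, h0⟩ := base h6
  obtain ⟨K, _, _, _, ex, hf⟩ := exists_fam h6
  have h1 := hardG_reg (by omega) hf h6 h0
  obtain ⟨T, hT⟩ := exists_nat_one_div_lt h6
  have : Nonempty (Fin q₁) := ⟨⟨0, by omega⟩⟩
  have : Nonempty (Fin (2 * q₁)) := ⟨⟨0, by omega⟩⟩
  have h2 := (h1.sm T ⟨0, by omega⟩).mono (P' := fun _ G => G.FibLE d ∧ G.Smooth (δ / 6))
    (fun _ _ h => ⟨fun k x b => (h.1 k x b).trans hd,
      fun x a a' hne => (h.2 x a a' hne).trans hT.le⟩) le_rfl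
  obtain ⟨q₀, hq₀⟩ := AG.exists_pad (Fin (T + 1) → Fin (2 * q₁))
    (Fin q₁ × (Fin (T + 1) → Fin (2 * q₁))) (d := d) (by omega) h6
  refine ⟨q₀, fun q hq => ?_⟩
  obtain ⟨R, _, _, ⟨Q⟩⟩ := hq₀ q hq
  have h3 := h2.pad Q
  obtain ⟨M, hM⟩ := exists_nat_ge (1 / (δ / 6) ^ 2 + 1 / δ)
  obtain ⟨p, hp, hpr⟩ := Nat.exists_infinite_primes
    (M + Fintype.card (((K × K) × Fin (T + 1)) × R))
  have : Fact p.Prime := ⟨hpr⟩
  obtain ⟨c⟩ : Nonempty ((((K × K) × Fin (T + 1)) × R) ↪ ZMod p) :=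
    Function.Embedding.nonempty_of_card_le (by rw [ZMod.card]; omega)
  have hMp : (M : ℝ) ≤ p := by exact_mod_cast (by omega : M ≤ p)
  have hp1 : 1 / (δ / 6) ^ 2 ≤ p := by
    have : 0 < 1 / δ := by positivity
    linarith
  have hp2 : 1 / δ ≤ p := by
    have : 0 < 1 / (δ / 6) ^ 2 := by positivity
    linarith
  have h4 := h3.lift c.injective h6 (by
    rw [ZMod.card, ← div_le_iff₀' (by positivity)]; exact hp1)
  refine ⟨_, inferInstance, ?_, h4.mono (fun _ _ h => ⟨h.1,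
    fun x a a' hne => (h.2.1 x a a' hne).trans (by linarith), h.2.2⟩) (by linarith)⟩
  rw [Fintype.card_prod, ZMod.card, ← div_le_iff₀' hδ]
  have h5 : (1 : ℝ) ≤ Fintype.card (((K × K) × Fin (T + 1)) × R) := by
    exact_mod_cast Fintype.card_pos
  push_cast
  have : (0 : ℝ) ≤ p := Nat.cast_nonneg _
  nlinarith

end Vale.Agent.N339
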